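import Vale.Agent.N372.Defs
import Vale.Agent.P372W90.Main

/-! The definition of `K_D` in `N372/Defs.lean` agrees with the one in `P372W90/Defs.lean`. -/

open Matrix Kronecker Filter Topology
open scoped ComplexOrder

namespace Vale.Agent.N372

variable {K E : Type} [Fintype K]

theorem Protocol.tree {A B T : Type}
    {run : T → Matrix ((A × B) × E) ((A × B) × E) ℂ → Matrix ((K × K) × E) ((K × K) × E) ℂ}
    (h : Protocol K E A B T run) : ∃ (π : P372W.Protocol K A B) (e : π.Transcript ≃ T),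
      ∀ X t, π.run X t = run (e t) X := by
  induction h with
  | output Φ Ψ hΦ hΨ dΦ dΨ =>
    exact ⟨.output ⟨fun _ => Φ, hΦ.1, hΦ.2⟩ ⟨fun _ => Ψ, hΨ.1, hΨ.2⟩ dΦ dΨ, Equiv.refl _,
      fun X t => rfl⟩
  | alice A' M Φ hΦ T run next ih =>
    choose π e he using ih
    exact ⟨.alice A' M ⟨Φ, hΦ.1, hΦ.2⟩ π, Equiv.sigmaCongrRight e, fun X t => he t.1 _ t.2⟩
  | bob B' M Φ hΦ T run next ih =>
    choose π e he using ih
    exact ⟨.bob B' M ⟨Φ, hΦ.1, hΦ.2⟩ π, Equiv.sigmaCongrRight e, fun X t => he t.1 _ t.2⟩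

theorem protocol_of_tree {A B : Type} (π : P372W.Protocol K A B) :
    Protocol K E A B π.Transcript fun t X => π.run X t := by
  induction π with
  | output ΦA ΦB hA hB =>
    exact .output (ΦA.op ()) (ΦB.op ()) ⟨fun _ => ΦA.cp (), ΦA.tp⟩ ⟨fun _ => ΦB.cp (), ΦB.tp⟩ hA hB
  | alice A' M Φ next ih =>
    exact .alice A' M Φ.op ⟨Φ.cp, Φ.tp⟩ _ (fun m t X => (next m).run X t) ih
  | bob B' M Φ next ih =>
    exact .bob B' M Φ.op ⟨Φ.cp, Φ.tp⟩ _ (fun m t X => (next m).run X t) ih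

variable {A B : Type} [Fintype E] [DecidableEq E]

theorem makesKey_iff (X : Matrix ((A × B) × E) ((A × B) × E) ℂ) (ℓ : ℕ) (ε : ℝ) :
    MakesKey X ℓ ε ↔ ∃ π : P372W.Protocol (Fin ℓ → Bool) A B, P372W.HasError π X ε := by
  constructor
  · rintro ⟨T, _, _, run, σ, h1, h2, h3⟩
    obtain ⟨π, e, he⟩ := h1.tree
    refine ⟨π, σ.submatrix ((Equiv.refl E).prodCongr e) ((Equiv.refl E).prodCongr e),
      ⟨h2.1.submatrix _, (P372.FULL.lk_trace _ _).trans h2.2⟩, le_of_eq_of_le ?_ h3⟩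
    have e1 : π.finalState X - P372W.idealKey ℓ ⊗ₖ
        σ.submatrix ((Equiv.refl E).prodCongr e) ((Equiv.refl E).prodCongr e) =
        (finalState (fun t => run t X) - idealKey ℓ ⊗ₖ σ).submatrix
          ((Equiv.refl _).prodCongr ((Equiv.refl E).prodCongr e))
          ((Equiv.refl _).prodCongr ((Equiv.refl E).prodCongr e)) := by
      ext p q
      have e2 : π.finalState X p q = finalState (fun t => run t X) (p.1, p.2.1, e p.2.2)
          (q.1, q.2.1, e q.2.2) := by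
        simp only [P372W.Protocol.finalState, finalState, of_apply, he,
          EmbeddingLike.apply_eq_iff_eq]
      rw [Matrix.sub_apply, e2]
      rfl
    rw [e1, P372W.trNorm_eq, P372.FULL.lk_tn, ← P372W.trNorm_eq]
    rfl
  · rintro ⟨π, σ, h2, h3⟩
    exact ⟨π.Transcript, inferInstance, inferInstance, _, σ, protocol_of_tree π, h2, h3⟩

theorem secretKey_bridge (ψ : (A × B) × E → ℂ) : secretKey ψ = P372W.secretKey ψ := by
  refine congrArg sSup (Set.ext fun r => ⟨?_, ?_⟩)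
  · rintro ⟨ℓ, ε, h1, h2, h3⟩
    choose π hπ using fun n => (makesKey_iff _ _ _).1 (h1 n)
    exact ⟨ℓ, ε, π, hπ, h2, h3⟩
  · rintro ⟨ℓ, ε, π, h1, h2, h3⟩
    exact ⟨ℓ, ε, fun n => (makesKey_iff _ _ _).2 ⟨π n, h1 n⟩, h2, h3⟩

end Vale.Agent.N372
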