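import Vale.Agent.P372.H897.Cliff

/-! Functions on the cube with values in `[-1, 1]`, Fourier support on the levels `1 mod b`,
alternating signs and a large sum of the coefficients of level one. -/

open Matrix

namespace Vale.Agent.N372

open Vale.Agent.P372.H897

variable {m : ℕ}

/-- The indicator vector of a set. -/
def ind (U : Finset (Fin m)) : V m := fun a => if a ∈ U then 1 else 0

/-- The characters of the cube. -/
def chi (u : V m) : V m → ℝ := fun x => sg (x ⬝ᵥ u)

theorem ind_union {U U' : Finset (Fin m)} (h : Disjoint U U') :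
    ind (U ∪ U') = ind U + ind U' := by
  funext a
  simp only [ind, Pi.add_apply, Finset.mem_union]
  by_cases h1 : a ∈ U
  · have h2 : a ∉ U' := Finset.disjoint_left.mp h h1
    simp [h1, h2]
  · by_cases h2 : a ∈ U' <;> simp [h1, h2]

theorem ind_empty : ind (∅ : Finset (Fin m)) = 0 := by
  funext a
  simp [ind]

theorem ind_inj {U U' : Finset (Fin m)} (h : ind U = ind U') : U = U' := by
  ext a
  have h1 := congrFun h a
  simp only [ind] at h1
  by_cases h2 : a ∈ U <;> by_cases h3 : a ∈ U' <;> simp_all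

theorem chi_add (u v : V m) : chi (u + v) = chi u * chi v := by
  funext x
  simp only [chi, Pi.mul_apply, dotProduct_add, sg_add]

theorem chi_zero : chi (0 : V m) = 1 := by
  funext x
  simp [chi, sg_zero]

theorem abs_chi (u x : V m) : |chi u x| ≤ 1 := by
  unfold chi sg
  split_ifs <;> simp

/-- The generators of the cone. -/
def Gen (b r : ℕ) (S : Finset (Fin m)) : Set (V m → ℝ) :=
  {F | ∃ (c : ℝ) (t : ℕ) (U : Finset (Fin m)), 0 ≤ c ∧ U ⊆ S ∧ U.card = r + b * t ∧
    F = (c * (-1) ^ t) • chi (ind U)}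

/-- Sums of terms `c (-1)^t χ_U` with `c ≥ 0`, `U ⊆ S`, `|U| = r + b t`. -/
def Cn (b r : ℕ) (S : Finset (Fin m)) : AddSubmonoid (V m → ℝ) := AddSubmonoid.closure (Gen b r S)

theorem Cn_mono {b r : ℕ} {S S' : Finset (Fin m)} (h : S ⊆ S') {F : V m → ℝ} (hF : F ∈ Cn b r S) :
    F ∈ Cn b r S' := by
  refine AddSubmonoid.closure_mono ?_ hF
  rintro G ⟨c, t, U, h1, h2, h3, h4⟩
  exact ⟨c, t, U, h1, h2.trans h, h3, h4⟩

theorem Cn_smul {b r : ℕ} {S : Finset (Fin m)} {F : V m → ℝ} (hF : F ∈ Cn b r S) {s : ℝ}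
    (hs : 0 ≤ s) : s • F ∈ Cn b r S := by
  induction hF using AddSubmonoid.closure_induction with
  | mem G hG =>
    obtain ⟨c, t, U, h1, h2, h3, rfl⟩ := hG
    refine AddSubmonoid.subset_closure ⟨s * c, t, U, mul_nonneg hs h1, h2, h3, ?_⟩
    rw [smul_smul, mul_assoc]
  | zero => rw [smul_zero]; exact zero_mem _
  | add G H _ _ h1 h2 => rw [smul_add]; exact add_mem h1 h2

theorem Cn_mul {b r r' : ℕ} {S S' : Finset (Fin m)} (h : Disjoint S S') {F G : V m → ℝ}
    (hF : F ∈ Cn b r S) (hG : G ∈ Cn b r' S') : F * G ∈ Cn b (r + r') (S ∪ S') := by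
  induction hF using AddSubmonoid.closure_induction with
  | mem F hF =>
    obtain ⟨c, t, U, h1, h2, h3, rfl⟩ := hF
    induction hG using AddSubmonoid.closure_induction with
    | mem G hG =>
      obtain ⟨c', t', U', h1', h2', h3', rfl⟩ := hG
      have hd : Disjoint U U' := Finset.disjoint_of_subset_left h2
        (Finset.disjoint_of_subset_right h2' h)
      refine AddSubmonoid.subset_closure ⟨c * c', t + t', U ∪ U', mul_nonneg h1 h1',
        Finset.union_subset_union h2 h2', ?_, ?_⟩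
      · rw [Finset.card_union_of_disjoint hd, h3, h3']
        ring
      · rw [ind_union hd, chi_add, smul_mul_smul_comm, pow_add]
        congr 1
        ring
    | zero => rw [mul_zero]; exact zero_mem _
    | add G H _ _ h4 h5 => rw [mul_add]; exact add_mem h4 h5
  | zero => rw [zero_mul]; exact zero_mem _
  | add F H _ _ h1 h2 => rw [add_mul]; exact add_mem h1 h2

theorem Cn_neg {b : ℕ} {S : Finset (Fin m)} {F : V m → ℝ} (hF : F ∈ Cn b (b + 1) S) :
    -F ∈ Cn b 1 S := by
  induction hF using AddSubmonoid.closure_induction with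
  | mem G hG =>
    obtain ⟨c, t, U, h1, h2, h3, rfl⟩ := hG
    refine AddSubmonoid.subset_closure ⟨c, t + 1, U, h1, h2, by rw [h3]; ring, ?_⟩
    rw [← neg_smul, pow_succ]
    congr 1
    ring
  | zero => rw [neg_zero]; exact zero_mem _
  | add G H _ _ h1 h2 => rw [neg_add]; exact add_mem h1 h2

theorem ell_zero {ℓ : (V m → ℝ) →ₗ[ℝ] ℝ}
    (hℓ : ∀ U : Finset (Fin m), ℓ (chi (ind U)) = if U.card = 1 then 1 else 0) {b r : ℕ}
    (hr : 2 ≤ r) {S : Finset (Fin m)} {F : V m → ℝ} (hF : F ∈ Cn b r S) : ℓ F = 0 := by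
  induction hF using AddSubmonoid.closure_induction with
  | mem G hG =>
    obtain ⟨c, t, U, -, -, h3, rfl⟩ := hG
    rw [map_smul, hℓ, if_neg (by omega), smul_zero]
  | zero => exact map_zero _
  | add G H _ _ h1 h2 => rw [map_add, h1, h2, add_zero]

/-- The sum and the product of `k` functions on disjoint sets of variables. -/
theorem sum_prod {ℓ : (V m → ℝ) →ₗ[ℝ] ℝ} {b n : ℕ} {lam : ℝ}
    (H : ∀ S : Finset (Fin m), n ≤ S.card → ∃ F ∈ Cn b 1 S, (∀ x, |F x| ≤ 1) ∧ ℓ F = lam)
    (k : ℕ) : ∀ S : Finset (Fin m), k * n ≤ S.card → ∃ A ∈ Cn b 1 S, ∃ P ∈ Cn b k S,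
      ℓ A = k * lam ∧ ∀ x, |P x| ≤ 1 ∧ 1 - P x ≤ k - A x ∧ 1 - (-1) ^ k * P x ≤ k + A x := by
  induction k with
  | zero =>
    intro S _
    refine ⟨0, zero_mem _, 1, AddSubmonoid.subset_closure ⟨1, 0, ∅, zero_le_one,
      Finset.empty_subset _, by simp, ?_⟩, by simp, fun x => by simp⟩
    rw [ind_empty, chi_zero]
    simp
  | succ k ih =>
    intro S hS
    obtain ⟨T, hTS, hT⟩ := Finset.exists_subset_card_eq (s := S) (n := n) (by nlinarith)
    have h1 : k * n ≤ (S \ T).card := by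
      rw [Finset.card_sdiff_of_subset hTS, hT]
      have : (k + 1) * n = k * n + n := by ring
      omega
    obtain ⟨A, hA, P, hP, hAl, hx⟩ := ih _ h1
    obtain ⟨F, hF, hF1, hFl⟩ := H T hT.ge
    have hu : S \ T ∪ T = S := Finset.sdiff_union_of_subset hTS
    refine ⟨A + F, add_mem (Cn_mono Finset.sdiff_subset hA) (Cn_mono hTS hF), P * F, ?_, ?_,
      fun x => ?_⟩
    · have h2 := Cn_mul Finset.sdiff_disjoint hP hF
      rwa [hu] at h2
    · rw [map_add, hAl, hFl]
      push_cast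
      ring
    · obtain ⟨p1, p2, p3⟩ := hx x
      have f1 := abs_le.mp (hF1 x)
      have p4 := abs_le.mp p1
      have p5 : |(-1) ^ k * P x| ≤ 1 := by
        rw [abs_mul, abs_pow, abs_neg, abs_one, one_pow, one_mul]
        exact p1
      have p6 := abs_le.mp p5
      simp only [Pi.mul_apply, Pi.add_apply]
      refine ⟨?_, ?_, ?_⟩
      · rw [abs_mul]
        exact mul_le_one₀ p1 (abs_nonneg _) (hF1 x)
      · push_cast
        nlinarith [mul_nonneg (sub_nonneg.mpr f1.2) (sub_nonneg.mpr p4.2)]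
      · push_cast
        have e : (-1 : ℝ) ^ (k + 1) * (P x * F x) = ((-1) ^ k * P x) * (-F x) := by ring
        rw [e]
        have f2 : 0 ≤ 1 - -F x := by linarith [f1.1]
        nlinarith [mul_nonneg f2 (sub_nonneg.mpr p6.2)]

/-- The iterated gadget `(y₀ + ⋯ + y_b - y₀ ⋯ y_b) / b`. -/
theorem gadget {ℓ : (V m → ℝ) →ₗ[ℝ] ℝ}
    (hℓ : ∀ U : Finset (Fin m), ℓ (chi (ind U)) = if U.card = 1 then 1 else 0) {b : ℕ}
    (hb : Even b) (hb0 : 0 < b) (j : ℕ) : ∀ S : Finset (Fin m), (b + 1) ^ j ≤ S.card →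
      ∃ F ∈ Cn b 1 S, (∀ x, |F x| ≤ 1) ∧ ℓ F = ((b + 1) / b : ℝ) ^ j := by
  induction j with
  | zero =>
    intro S hS
    obtain ⟨T, hTS, hT⟩ := Finset.exists_subset_card_eq (s := S) (n := 1) (by simpa using hS)
    refine ⟨chi (ind T), AddSubmonoid.subset_closure ⟨1, 0, T, zero_le_one, hTS, by simpa using hT,
      by simp⟩, abs_chi _, ?_⟩
    rw [hℓ, if_pos hT, pow_zero]
  | succ j ih =>
    intro S hS
    obtain ⟨A, hA, P, hP, hAl, hx⟩ := sum_prod ih (b + 1) S (by rw [← pow_succ']; exact hS)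
    have hb' : (0 : ℝ) < b := by exact_mod_cast hb0
    refine ⟨(b : ℝ)⁻¹ • (A + -P), Cn_smul (add_mem hA (Cn_neg hP)) (inv_nonneg.mpr hb'.le),
      fun x => ?_, ?_⟩
    · obtain ⟨-, p2, p3⟩ := hx x
      rw [pow_succ, hb.neg_one_pow] at p3
      push_cast at p2 p3
      simp only [Pi.smul_apply, Pi.add_apply, Pi.neg_apply, smul_eq_mul]
      rw [abs_mul, abs_of_pos (inv_pos.mpr hb'), inv_mul_le_iff₀ hb', mul_one, abs_le]
      constructor <;> linarith
    · rw [map_smul, map_add, map_neg, hAl, ell_zero hℓ (by omega) hP, pow_succ, smul_eq_mul]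
      push_cast
      field_simp
      ring

end Vale.Agent.N372
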