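import Mathlib

/-!
# P372: states, local operations, key-distillation protocols, `K_D`

An operator on the Hilbert space with orthonormal basis indexed by the finite type `A` is a matrix
`Matrix A A ℂ`; the systems of Alice, Bob and Eve are ordered as `(A × B) × E`.
-/

open Matrix Filter Topology Kronecker
open scoped ComplexOrder MatrixOrder

namespace Vale.Agent.N372

variable {A A' B B' E K M T : Type}

/-- A state (density operator). -/
def IsState [Fintype A] (ρ : Matrix A A ℂ) : Prop := ρ.PosSemidef ∧ ρ.trace = 1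

/-- Separable: a finite convex combination of product states. -/
def Separable [Fintype A] [Fintype B] (ρ : Matrix (A × B) (A × B) ℂ) : Prop :=
  ∃ (m : ℕ) (p : Fin m → ℝ) (α : Fin m → Matrix A A ℂ) (β : Fin m → Matrix B B ℂ),
    (∀ i, 0 ≤ p i) ∧ ∑ i, p i = 1 ∧ (∀ i, IsState (α i) ∧ IsState (β i)) ∧
      ρ = ∑ i, p i • (α i ⊗ₖ β i)

/-- The trace norm `tr √(X* X)`. -/
noncomputable def trNorm [Fintype A] [DecidableEq A] (X : Matrix A A ℂ) : ℝ :=
  (CFC.sqrt (Xᴴ * X)).trace.re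

/-- `ψ` is a purification of `ρ`: the trace of `|ψ⟩⟨ψ|` over the system `E` is `ρ`. -/
def IsPurification [Fintype E] (ψ : A × E → ℂ) (ρ : Matrix A A ℂ) : Prop :=
  ∀ p q, ρ p q = ∑ e, ψ (p, e) * star (ψ (q, e))

/-- The state `|ψ⟩⟨ψ|^{⊗ n}` of the system `(A^n B^n) E^n`. -/
def copies (n : ℕ) (ψ : (A × B) × E → ℂ) : Matrix (((Fin n → A) × (Fin n → B)) × (Fin n → E))
    (((Fin n → A) × (Fin n → B)) × (Fin n → E)) ℂ :=
  fun p q => (∏ i, ψ ((p.1.1 i, p.1.2 i), p.2 i)) * star (∏ i, ψ ((q.1.1 i, q.1.2 i), q.2 i))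

/-- Linear maps from the operators on `A` to the operators on `A'`. -/
abbrev Op (A A' : Type) : Type := Matrix A A ℂ →ₗ[ℂ] Matrix A' A' ℂ

/-- A quantum instrument with outcomes in `M`: completely positive maps (`Φ m ⊗ id` on `A ⊗ ℂ^k`
preserves positivity for every `k`) whose sum preserves the trace. The new system `A'` is
arbitrary: ancillas and private randomness are added, kept or discarded by such maps. -/
def IsInstrument [Fintype A] [Fintype A'] [Fintype M] (Φ : M → Op A A') : Prop :=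
  (∀ (m : M) (k : ℕ) (X : Matrix (A × Fin k) (A × Fin k) ℂ), X.PosSemidef →
    PosSemidef (of fun p q : A' × Fin k => Φ m (of fun a a' => X (a, p.2) (a', q.2)) p.1 q.1)) ∧
  ∀ X, ∑ m, (Φ m X).trace = X.trace

/-- `Φ ⊗ id_B ⊗ id_E`: Alice acts. -/
def onA (Φ : Op A A') (X : Matrix ((A × B) × E) ((A × B) × E) ℂ) :
    Matrix ((A' × B) × E) ((A' × B) × E) ℂ :=
  fun p q => Φ (of fun a a' => X ((a, p.1.2), p.2) ((a', q.1.2), q.2)) p.1.1 q.1.1

/-- `id_A ⊗ Φ ⊗ id_E`: Bob acts. -/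
def onB (Φ : Op B B') (X : Matrix ((A × B) × E) ((A × B) × E) ℂ) :
    Matrix ((A × B') × E) ((A × B') × E) ℂ :=
  fun p q => Φ (of fun b b' => X ((p.1.1, b), p.2) ((q.1.1, b'), q.2)) p.1.2 q.1.2

/-- `Protocol K E A B T run`: a protocol with key registers `K` on the local systems `A`, `B` has
the public transcripts `t : T` and takes the state `X` of `A B E` to the operator `run t X` on
`K_A K_B E` in the branch `t`. `output`: local channels produce the classical (diagonal) registers.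
`alice`, `bob`: a local instrument, whose outcome `m` is announced, then a protocol depending on
`m`. -/
inductive Protocol (K E : Type) [Fintype K] : (A B T : Type) →
    (T → Matrix ((A × B) × E) ((A × B) × E) ℂ → Matrix ((K × K) × E) ((K × K) × E) ℂ) → Prop
  | output {A B : Type} [Fintype A] [Fintype B] (Φ : Op A K) (Ψ : Op B K)
      (hΦ : IsInstrument fun _ : Unit => Φ) (hΨ : IsInstrument fun _ : Unit => Ψ)
      (dΦ : ∀ X, (Φ X).IsDiag) (dΨ : ∀ X, (Ψ X).IsDiag) :
      Protocol K E A B Unit fun _ X => onB Ψ (onA Φ X)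
  | alice {A B : Type} (A' M : Type) [Fintype A] [Fintype A'] [Fintype M] (Φ : M → Op A A')
      (hΦ : IsInstrument Φ) (T : M → Type) (run : ∀ m, T m → _ → _)
      (next : ∀ m, Protocol K E A' B (T m) (run m)) :
      Protocol K E A B (Σ m, T m) fun t X => run t.1 t.2 (onA (Φ t.1) X)
  | bob {A B : Type} (B' M : Type) [Fintype B] [Fintype B'] [Fintype M] (Φ : M → Op B B')
      (hΦ : IsInstrument Φ) (T : M → Type) (run : ∀ m, T m → _ → _)
      (next : ∀ m, Protocol K E A B' (T m) (run m)) :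
      Protocol K E A B (Σ m, T m) fun t X => run t.1 t.2 (onB (Φ t.1) X)

/-- The final state `τ = ∑_t τ_t ⊗ |t⟩⟨t|` of `K_A K_B E'`; Eve's final system `E'` consists of `E`
and a copy of the transcript. -/
def finalState [DecidableEq T] (τ : T → Matrix ((K × K) × E) ((K × K) × E) ℂ) :
    Matrix ((K × K) × (E × T)) ((K × K) × (E × T)) ℂ :=
  fun p q => if p.2.2 = q.2.2 then τ p.2.2 (p.1, p.2.1) (q.1, q.2.1) else 0

/-- The ideal key `2^{-ℓ} ∑_z |z,z⟩⟨z,z|`. -/
noncomputable def idealKey (ℓ : ℕ) :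
    Matrix ((Fin ℓ → Bool) × (Fin ℓ → Bool)) ((Fin ℓ → Bool) × (Fin ℓ → Bool)) ℂ :=
  ((2 : ℂ) ^ ℓ)⁻¹ • ∑ z, single (z, z) (z, z) 1

/-- Some protocol makes from the state `X` of `A B E` a key of `ℓ` bits with error `ε`. -/
def MakesKey [Fintype E] [DecidableEq E] (X : Matrix ((A × B) × E) ((A × B) × E) ℂ) (ℓ : ℕ)
    (ε : ℝ) : Prop :=
  ∃ (T : Type) (_ : Fintype T) (_ : DecidableEq T) (run : T → _ → _)
    (σ : Matrix (E × T) (E × T) ℂ), Protocol (Fin ℓ → Bool) E A B T run ∧ IsState σ ∧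
      trNorm (finalState (fun t => run t X) - idealKey ℓ ⊗ₖ σ) ≤ ε

/-- `K_D`, Eve holding the system `E` of the purification `ψ`: the supremum of `liminf ℓ n / n`
over sequences of protocols on `n` copies with errors tending to `0`. -/
noncomputable def secretKey [Fintype E] [DecidableEq E] (ψ : (A × B) × E → ℂ) : EReal :=
  sSup {r | ∃ (ℓ : ℕ → ℕ) (ε : ℕ → ℝ), (∀ n, MakesKey (copies n ψ) (ℓ n) (ε n)) ∧
    Tendsto ε atTop (𝓝 0) ∧ r = liminf (fun n => (((ℓ n : ℝ) / (n : ℝ) : ℝ) : EReal)) atTop}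

/-- `K_D(ρ) = 0`: purifications exist and `K_D` vanishes for each of them. -/
def ZeroKey [Fintype A] [Fintype B] (ρ : Matrix (A × B) (A × B) ℂ) : Prop :=
  (∃ ψ : (A × B) × (A × B) → ℂ, IsPurification ψ ρ) ∧
    ∀ (E : Type) [Fintype E] [DecidableEq E] (ψ : (A × B) × E → ℂ),
      IsPurification ψ ρ → secretKey ψ = 0

/-- `ρ^{T_B}`: the transpose on Bob's system. -/
def bobT (ρ : Matrix (A × B) (A × B) ℂ) : Matrix (A × B) (A × B) ℂ :=
  fun p q => ρ (p.1, q.2) (q.1, p.2)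

/-- `Re ⟨v, (ρ^{T_B})^{⊗ n} v⟩ ≥ 0` for all `n` and all vectors `v = x ⊗ y + x' ⊗ y'` of
`A^n ⊗ B^n` (Schmidt rank at most two). -/
def Undistillable [Fintype A] [Fintype B] (ρ : Matrix (A × B) (A × B) ℂ) : Prop :=
  ∀ (n : ℕ) (x x' : (Fin n → A) → ℂ) (y y' : (Fin n → B) → ℂ)
    (v : (Fin n → A) × (Fin n → B) → ℂ), (∀ p, v p = x p.1 * y p.2 + x' p.1 * y' p.2) →
      0 ≤ (∑ p, ∑ q, star (v p) * (∏ i, bobT ρ (p.1 i, p.2 i) (q.1 i, q.2 i)) * v q).re

/-- The Werner state `(1 - t F) / (d² - t d)`, where `F(x ⊗ y) = y ⊗ x`. -/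
noncomputable def werner (d : ℕ) (t : ℝ) : Matrix (Fin d × Fin d) (Fin d × Fin d) ℂ :=
  ((d : ℝ) ^ 2 - t * d)⁻¹ • (1 - t • of fun p q => if p = q.swap then 1 else 0)

end Vale.Agent.N372
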