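import Vale.Agent.N372.Op

/-! Two states without key: one is entangled and equal to its transpose on Bob's side, the other
has a negative expectation of the flip. -/

open Matrix Kronecker
open scoped ComplexOrder

namespace Vale.Agent.N372

open Vale.Agent.P372 Vale.Agent.P372.H897 Vale.Agent.P372.FULL

variable {m : ℕ}

/-- The noise applied to the operator of `F`. -/
noncomputable def tw : (V m → ℝ) →ₗ[ℝ] Matrix (V m × V m) (V m × V m) ℂ :=
  ((apL (kt (tk m) (tk m))).restrictScalars ℝ).comp op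

theorem tw_apply (F : V m → ℝ) : tw F = TT m (op F) := rfl

theorem tw_chi (u : V m) : tw (chi u) = (((mu (lab u)) ^ 2 : ℝ) : ℂ) • Qv u := by
  rw [tw_apply, op_chi, TT_Qv]

/-- The states `(1 + T(F) / 3) / D²`. -/
noncomputable def rho (F : V m → ℝ) : Matrix (V m × V m) (V m × V m) ℂ :=
  ((((2 : ℝ) ^ m * 2 ^ m)⁻¹ : ℝ) : ℂ) • (1 + (1 / 3 : ℂ) • tw F)

theorem trace_one_V : (1 : Matrix (V m × V m) (V m × V m) ℂ).trace = 2 ^ m * 2 ^ m := by
  rw [← Qv_zero, Qv_trace, if_pos rfl]

theorem rho_state {F : V m → ℝ} (h : ∀ x, |F x| ≤ 1) (h0 : (op F).trace = 0) :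
    (rho F).PosSemidef ∧ (rho F).trace = 1 ∧ ¬ KeyPos (rho F) := by
  have hc : (0 : ℝ) < ((2 : ℝ) ^ m * 2 ^ m)⁻¹ := by positivity
  have hV : (1 + op F).PosSemidef := one_add_op h
  have hV2 : ((2 : ℂ) • 1 - (1 + op F)).PosSemidef := by
    have h1 := one_add_op (F := -F) fun x => by rw [Pi.neg_apply, abs_neg]; exact h x
    rw [map_neg] at h1
    convert h1 using 1
    rw [two_smul]
    abel
  have hR : 1 + (1 / 3 : ℂ) • tw F =
      (2 / 3 : ℂ) • 1 + (1 / 3 : ℂ) • ap (kt (tk m) (tk m)) (1 + op F) := by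
    have h1 : ap (kt (tk m) (tk m)) (1 + op F) = 1 + tw F := by
      rw [← apL_apply, map_add, apL_apply, (good_TT m).one]
      rfl
    rw [h1, smul_add, ← add_assoc, ← add_smul]
    norm_num
  have hp : (rho F).PosSemidef := by
    rw [rho, hR]
    refine PosSemidef.smul ((PosSemidef.one.smul ?_).add
      ((ap_psd (good_TT m).sf.choi hV).smul ?_)) (Complex.zero_le_real.mpr hc.le)
    · rw [show (2 / 3 : ℂ) = ((2 / 3 : ℝ) : ℂ) by norm_num]
      exact Complex.zero_le_real.mpr (by norm_num)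
    · rw [show (1 / 3 : ℂ) = ((1 / 3 : ℝ) : ℂ) by norm_num]
      exact Complex.zero_le_real.mpr (by norm_num)
  have ht : (rho F).trace = 1 := by
    have h1 : (tw F).trace = 0 := by rw [← h0]; exact (good_TT m).trace _
    rw [rho, trace_smul, trace_add, trace_smul, h1, trace_one_V, smul_zero, add_zero, smul_eq_mul]
    push_cast
    exact inv_mul_cancel₀ (mul_ne_zero two_ne two_ne)
  refine ⟨hp, ht, fun hk => ?_⟩
  obtain ⟨P, hP, hPP⟩ := exists_sqrt hp
  have hΨ : P * Pᴴ = rho F := by rw [hP.1.eq, hPP]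
  refine (hk _ P hΨ).ne' (H672.key_zero_of_lin P (by rw [hΨ, ht]) fun n X₀ X₁ Y₀ Y₁ => ?_)
  have h1 := half_all (merge54 (good_tk m) (good_tk m) hV hV2 (c := (2 : ℝ) ^ m * 2 ^ m)
    (by positivity) (by rw [trace_add, h0, trace_one_V]; push_cast; ring) n) X₀ X₁ Y₀ Y₁
  rw [← hR] at h1
  rw [hΨ, rho, lk_tpow_smul, ← Complex.ofReal_pow]
  simp only [lk_weight_smul, Matrix.mul_smul, Matrix.smul_mul, traceNorm_smul]
  rw [Complex.norm_real, Real.norm_of_nonneg (pow_nonneg hc.le n)]
  have h2 := mul_le_mul_of_nonneg_left h1 (pow_pos hc n).le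
  linarith only [h2]

theorem trace_cone {b : ℕ} {S : Finset (Fin m)} {F : V m → ℝ} (hF : F ∈ Cn b 1 S) :
    (op F).trace = 0 := by
  induction hF using AddSubmonoid.closure_induction with
  | mem G hG =>
    obtain ⟨c, t, U, -, -, h3, rfl⟩ := hG
    rw [map_smul, op_chi, trace_smul, Qv_trace, if_neg, smul_zero]
    intro h
    rw [← ind_empty] at h
    rw [ind_inj h, Finset.card_empty] at h3
    omega
  | zero => rw [map_zero, trace_zero]
  | add G H _ _ h1 h2 => rw [map_add, trace_add, h1, h2, add_zero]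

theorem pTrans_cone {S : Finset (Fin m)} {F : V m → ℝ} (hF : F ∈ Cn 4 1 S) :
    pTrans (tw F) = tw F := by
  induction hF using AddSubmonoid.closure_induction with
  | mem G hG =>
    obtain ⟨c, t, U, -, -, h3, rfl⟩ := hG
    have h1 : pTrans (tw (chi (ind U))) = tw (chi (ind U)) := by
      rw [tw_chi, H625.pTrans_smul, Qv_pTrans, sg_bet (t := 2 * t) (by omega), pow_mul]
      simp
    rw [map_smul, ← Complex.coe_smul, H625.pTrans_smul, h1]
  | zero => rw [map_zero]; rfl
  | add G H _ _ h1 h2 => rw [map_add, H625.pTrans_add, h1, h2]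

theorem flip_cone {S : Finset (Fin m)} {F : V m → ℝ} (hF : F ∈ Cn 2 1 S) :
    2 ^ m * (ell F / 9) ≤ (H625.flipOp (V m) * tw F).trace.re := by
  induction hF using AddSubmonoid.closure_induction with
  | mem G hG =>
    obtain ⟨c, t, U, h1, -, h3, rfl⟩ := hG
    have h4 : (H625.flipOp (V m) * tw ((c * (-1) ^ t) • chi (ind U))).trace.re =
        c * mu (lab (ind U)) ^ 2 * 2 ^ m := by
      rw [map_smul, tw_chi, Matrix.mul_smul, Matrix.mul_smul, trace_smul, trace_smul, flip_Qv,
        sg_bet h3, Complex.smul_re, smul_eq_mul, smul_eq_mul]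
      have h5 : (-1 : ℝ) ^ t * (-1) ^ t = 1 := by rw [← mul_pow]; simp
      norm_cast
      push_cast
      linear_combination c * mu (lab (ind U)) ^ 2 * 2 ^ m * h5
    rw [h4, map_smul, ell_chi, smul_eq_mul]
    by_cases e : U.card = 1
    · obtain rfl : t = 0 := by omega
      obtain ⟨a, rfl⟩ := Finset.card_eq_one.mp e
      rw [if_pos e, lab_single, mu_fg]
      apply le_of_eq
      ring
    · rw [if_neg e, mul_zero, zero_div, mul_zero]
      positivity
  | zero => simp
  | add G H _ _ h1 h2 =>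
    rw [map_add, map_add, Matrix.mul_add, trace_add, Complex.add_re]
    linarith

theorem q_trace (a : Fin m) : ((clV m).q a).trace = 0 := by
  rw [q_eq, Qv_trace, if_neg]
  intro h
  rw [← ind_empty] at h
  exact Finset.singleton_ne_empty a (ind_inj h)

theorem rho_q (F : V m → ℝ) : ∑ a, (rho F * (clV m).q a).trace.re = ell F / 27 := by
  have h : ∀ a, (rho F * (clV m).q a).trace.re =
      ((2 : ℝ) ^ m * 2 ^ m)⁻¹ * (op F * (clV m).q a).trace.re / 27 := by
    intro a
    have h1 : (tw F * (clV m).q a).trace = (1 / 9 : ℂ) * (op F * (clV m).q a).trace := by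
      have h2 := (good_TT m).dual_trace (op F) ((clV m).q a)
      have h3 : ap (kt (tk m) (tk m)) ((clV m).q a) = (1 / 9 : ℂ) • (clV m).q a := TT_q a
      rw [h3, Matrix.mul_smul, trace_smul, smul_eq_mul] at h2
      exact h2
    rw [rho, Matrix.smul_mul, Matrix.add_mul, Matrix.one_mul, Matrix.smul_mul, trace_smul,
      trace_add, trace_smul, q_trace, zero_add, h1, smul_eq_mul, smul_eq_mul, Complex.re_ofReal_mul,
      ← mul_assoc (1 / 3 : ℂ), show (1 / 3 : ℂ) * (1 / 9) = ((1 / 27 : ℝ) : ℂ) by norm_num,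
      Complex.re_ofReal_mul]
    ring
  simp only [h]
  rw [ell_apply, Finset.mul_sum, Finset.sum_div]

/-- An entangled state with positive transpose on Bob's side and without key. -/
theorem exists_ppt (hm : 5 ^ 15 ≤ m) : ∃ ρ : Matrix (V m × V m) (V m × V m) ℂ,
    ρ.PosSemidef ∧ ρ.trace = 1 ∧ ¬ KeyPos ρ ∧ (pTrans ρ).PosSemidef ∧ ¬ IsSep ρ := by
  obtain ⟨F, hF, h1, h2⟩ := gadget (m := m) ell_chi (b := 4) (by decide) (by norm_num) 15
    Finset.univ (by rw [Finset.card_univ, Fintype.card_fin]; exact hm)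
  obtain ⟨p1, p2, p3⟩ := rho_state h1 (trace_cone hF)
  refine ⟨rho F, p1, p2, p3, ?_, fun hs => ?_⟩
  · have e : pTrans (rho F) = rho F := by
      rw [rho, H625.pTrans_smul, H625.pTrans_add, H625.pTrans_smul, H625.pTrans_one,
        pTrans_cone hF]
    rw [e]
    exact p1
  · have h3 := (clV m).sep_le hs
    rw [rho_q, p2, h2, Complex.one_re] at h3
    norm_num at h3

/-- States without key and with a very negative expectation of the flip. -/
theorem exists_npt (j : ℕ) (hm : 3 ^ j ≤ m) : ∃ ρ : Matrix (V m × V m) (V m × V m) ℂ,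
    ρ.PosSemidef ∧ ρ.trace = 1 ∧ ¬ KeyPos ρ ∧
      (H625.flipOp (V m) * ρ).trace.re * 2 ^ m ≤ 1 - (3 / 2) ^ j / 27 := by
  obtain ⟨F, hF, h1, h2⟩ := gadget (m := m) ell_chi (b := 2) (by decide) (by norm_num) j
    Finset.univ (by rw [Finset.card_univ, Fintype.card_fin]; exact hm)
  obtain ⟨p1, p2, p3⟩ := rho_state (F := -F) (fun x => by rw [Pi.neg_apply, abs_neg]; exact h1 x)
    (by rw [map_neg, trace_neg, trace_cone hF, neg_zero])
  refine ⟨rho (-F), p1, p2, p3, ?_⟩
  have h5 := flip_cone hF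
  have h6 : ((Fintype.card (V m) : ℕ) : ℂ) = ((2 ^ m : ℝ) : ℂ) := by simp
  rw [rho, map_neg, Matrix.mul_smul, Matrix.mul_add, Matrix.mul_one, Matrix.mul_smul,
    Matrix.mul_neg, trace_smul, trace_add, trace_smul, trace_neg, H625.flip_trace, h6, smul_eq_mul,
    smul_eq_mul, Complex.re_ofReal_mul, Complex.add_re,
    show (1 / 3 : ℂ) = ((1 / 3 : ℝ) : ℂ) by norm_num, Complex.re_ofReal_mul, Complex.neg_re,
    Complex.ofReal_re]
  rw [h2, show (((2 : ℕ) : ℝ) + 1) / (2 : ℕ) = 3 / 2 by norm_num] at h5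
  have h8 : (0 : ℝ) < 2 ^ m := by positivity
  rw [mul_comm, ← mul_assoc, mul_inv, ← mul_assoc, mul_inv_cancel₀ h8.ne', one_mul,
    inv_mul_le_iff₀ h8]
  linarith

end Vale.Agent.N372
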