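import Vale.Agent.N372.Ex
import Vale.Agent.N372.Bridge

/-! Embedding into larger systems, twirling and the main theorem. -/

open Matrix Kronecker Filter Topology
open scoped ComplexOrder

set_option linter.unusedSectionVars false

namespace Vale.Agent.N372

open Vale.Agent.P372 Vale.Agent.P372.H897 Vale.Agent.P372.H625

variable {A B C D : Type} [Fintype A] [DecidableEq A] [Fintype B] [DecidableEq B]
  [Fintype C] [DecidableEq C] [Fintype D] [DecidableEq D]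

theorem zeroKey_of {ρ : Matrix (A × B) (A × B) ℂ} (h : IsState ρ) (hk : ¬ KeyPos ρ) :
    ZeroKey ρ := by
  refine ⟨P372W.exists_purification h.1, fun E _ _ ψ hψ => ?_⟩
  have h1 := (P372W.isPurification_iff _ _).1 hψ
  rw [secretKey_bridge, P372W.secretKey_eq]
  refine le_antisymm (not_lt.mp fun hp => hk fun E' _ _ Ψ hΨ => ?_)
    (H672.key_nonneg _ (by rw [h1, h.2]))
  rw [keyPos_iff _ _ _ _ (by rw [h1, h.2]), h1] at hp
  rw [keyPos_iff _ _ _ _ (by rw [hΨ, h.2]), hΨ]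
  exact hp

theorem undist_of {ρ : Matrix (A × B) (A × B) ℂ} (h : IsState ρ) (hk : ¬ KeyPos ρ) :
    Undistillable ρ := by
  intro n x x' y y' v hv
  have e0 : ∑ p, ∑ q, star (v p) * (∏ i, bobT ρ (p.1 i, p.2 i) (q.1 i, q.2 i)) * v q =
      sprod v (tpow n (pTrans ρ) *ᵥ v) := by
    refine Finset.sum_congr rfl fun p _ => ?_
    rw [mulVec, dotProduct, Finset.mul_sum]
    exact Finset.sum_congr rfl fun q _ => mul_assoc _ _ _
  rw [e0]
  rcases Nat.eq_zero_or_pos n with rfl | hn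
  · have e : tpow 0 (pTrans ρ) = 1 := by
      ext p q
      rw [Subsingleton.elim p q, one_apply_eq]
      simp [tpow]
    rw [e, one_mulVec]
    exact (Complex.le_def.mp (dotProduct_star_self_nonneg v)).1
  · by_contra hc
    refine hk fun E _ _ Ψ hΨ => test_pos Ψ (by rw [hΨ, h.2]) le_rfl zero_le_one le_rfl
      zero_le_one ?_
    rw [hΨ]
    refine (corner_iff h.1).2 ⟨n, x, x', y, y', hn, ?_⟩
    have e : v = prodVec x y + prodVec x' y' := funext hv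
    rw [← e]
    exact not_le.mp hc

theorem Separable.isSep {ρ : Matrix (A × B) (A × B) ℂ} (h : Separable ρ) : IsSep ρ :=
  P372W.Separable.isSep h

theorem exists_iso (h : Fintype.card A ≤ Fintype.card C) : ∃ X : Matrix C A ℂ, Xᴴ * X = 1 := by
  obtain ⟨e⟩ := Function.Embedding.nonempty_of_card_le h
  refine ⟨of fun i a => if i = e a then 1 else 0, ?_⟩
  ext a a'
  rw [mul_apply, Finset.sum_eq_single (e a)]
  · simp [one_apply]
  · intro i _ hi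
    simp [hi]
  · simp

theorem kron_iso {X : Matrix C A ℂ} {Y : Matrix D B ℂ} (hX : Xᴴ * X = 1) (hY : Yᴴ * Y = 1) :
    (X ⊗ₖ Y)ᴴ * (X ⊗ₖ Y) = 1 := by
  rw [conjTranspose_kronecker, ← mul_kronecker_mul, hX, hY, one_kronecker_one]

theorem emb_trace {X : Matrix C A ℂ} {Y : Matrix D B ℂ} (hX : Xᴴ * X = 1) (hY : Yᴴ * Y = 1)
    (ρ : Matrix (A × B) (A × B) ℂ) : ((X ⊗ₖ Y) * ρ * (X ⊗ₖ Y)ᴴ).trace = ρ.trace := by
  rw [Matrix.mul_assoc, trace_mul_comm, Matrix.mul_assoc, kron_iso hX hY, Matrix.mul_one]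

theorem emb_sep {X : Matrix C A ℂ} {Y : Matrix D B ℂ} (hX : Xᴴ * X = 1) (hY : Yᴴ * Y = 1)
    {ρ : Matrix (A × B) (A × B) ℂ} (h : IsSep ((X ⊗ₖ Y) * ρ * (X ⊗ₖ Y)ᴴ)) : IsSep ρ := by
  obtain ⟨n, M, N, hM, hN, hMN⟩ := h
  refine ⟨n, fun k => Xᴴ * M k * X, fun k => Yᴴ * N k * Y,
    fun k => (hM k).conjTranspose_mul_mul_same _, fun k => (hN k).conjTranspose_mul_mul_same _, ?_⟩
  have e : ρ = (X ⊗ₖ Y)ᴴ * ((X ⊗ₖ Y) * ρ * (X ⊗ₖ Y)ᴴ) * (X ⊗ₖ Y) := by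
    rw [Matrix.mul_assoc, Matrix.mul_assoc, kron_iso hX hY, Matrix.mul_one, ← Matrix.mul_assoc,
      kron_iso hX hY, Matrix.one_mul]
  rw [e, hMN, Matrix.mul_sum, Matrix.sum_mul]
  refine Finset.sum_congr rfl fun k _ => ?_
  rw [conjTranspose_kronecker, ← mul_kronecker_mul, ← mul_kronecker_mul]

theorem emb_key {X : Matrix C A ℂ} {Y : Matrix D B ℂ} (hX : Xᴴ * X = 1) (hY : Yᴴ * Y = 1)
    {ρ : Matrix (A × B) (A × B) ℂ} (hρ : ρ.PosSemidef) (h1 : ρ.trace = 1)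
    (h : KeyPos ((X ⊗ₖ Y) * ρ * (X ⊗ₖ Y)ᴴ)) : KeyPos ρ := by
  refine keyPos_sepOp (K := Unit) hρ h1 ((emb_trace hX hY ρ).trans h1) (fun _ => 1)
    (fun _ => X * idF A ((√(1 : ℝ) : ℝ) : ℂ)) (fun _ => Y * idF B 1) ?_ h
  rw [Fintype.sum_unique, ← filtered_comp', filtered_idF ρ zero_le_one, Complex.ofReal_one,
    one_smul]

theorem emb_flip {X : Matrix C A ℂ} (hX : Xᴴ * X = 1) (ρ : Matrix (A × A) (A × A) ℂ) :
    (flipOp C * ((X ⊗ₖ X) * ρ * (X ⊗ₖ X)ᴴ)).trace = (flipOp A * ρ).trace := by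
  have hc : flipOp C * (X ⊗ₖ X) = (X ⊗ₖ X) * flipOp A := by
    ext ⟨i, j⟩ ⟨k, l⟩
    rw [mul_apply, mul_apply, Finset.sum_eq_single (j, i), Finset.sum_eq_single (l, k)]
    · simp only [flipOp, kroneckerMap_apply, and_self, if_true, one_mul, mul_one]
      ring
    · rintro ⟨x, y⟩ - hxy
      rw [flipOp, if_neg, mul_zero]
      rintro ⟨h1, h2⟩
      exact hxy (Prod.ext h1 h2)
    · intro hcc
      exact absurd (Finset.mem_univ _) hcc
    · rintro ⟨x, y⟩ - hxy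
      rw [flipOp, if_neg, zero_mul]
      rintro ⟨h1, h2⟩
      exact hxy (Prod.ext h2.symm h1.symm)
    · intro hcc
      exact absurd (Finset.mem_univ _) hcc
  rw [← Matrix.mul_assoc, ← Matrix.mul_assoc, hc, Matrix.mul_assoc _ (flipOp A), emb_trace hX hX]

/-- Twirling: the Werner state with the same expectation of the flip has no key either. -/
theorem wer_no_key (hd : 2 ≤ Fintype.card D) {σ : Matrix (D × D) (D × D) ℂ} (hσ : σ.PosSemidef)
    (h1 : σ.trace = 1) (hk : ¬ KeyPos σ) :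
    (wer D (flipOp D * σ).trace.re).PosSemidef ∧ ¬ KeyPos (wer D (flipOp D * σ).trace.re) := by
  obtain ⟨z, hz, hinv⟩ := exists_inv σ
  obtain ⟨α, β, hz'⟩ := werner_form hinv
  obtain ⟨hzp, hzt, hzf⟩ := hull_props hσ hz
  have hreal : (flipOp D * σ).trace = ((flipOp D * σ).trace.re : ℂ) := by
    have h2 : star (flipOp D * σ).trace = (flipOp D * σ).trace := by
      rw [← trace_conjTranspose, conjTranspose_mul, flip_herm, hσ.1.eq, trace_mul_comm]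
    rw [RCLike.star_def, Complex.conj_eq_iff_real] at h2
    obtain ⟨r, hr⟩ := h2
    rw [hr, Complex.ofReal_re]
  rw [← wer_of hd hz' (hzt.trans h1) (hzf.trans hreal)]
  refine ⟨hzp, fun hkz => hk ?_⟩
  obtain ⟨δ', hδ', H'⟩ := keyPos_open hzp (hzt.trans h1) hkz
  obtain ⟨y, hy1, hy2⟩ := mem_closure_iff_nhds.mp hz _ (near_nhds z hδ')
  obtain ⟨-, hyt, -⟩ := hull_props hσ (subset_closure hy2)
  exact keyPos_comb hσ h1 (hull_comb σ hy2) (hyt.trans h1) (H' y (hyt.trans h1) hy1)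

theorem werner_eq {d : ℕ} (hd : 2 ≤ d) {t : ℝ} (ht : t < d) :
    werner d t = wer (Fin d) ((1 - t * d) / (d - t)) := by
  have hd' : (2 : ℝ) ≤ d := by exact_mod_cast hd
  have h1 : (d : ℝ) ≠ 0 := by linarith
  have h2 : (d : ℝ) - t ≠ 0 := by linarith
  have h3 : (d : ℝ) ^ 2 - 1 ≠ 0 := by nlinarith
  have h4 : (d : ℝ) ^ 2 - t * d ≠ 0 := by
    rw [show (d : ℝ) ^ 2 - t * d = d * (d - t) by ring]
    exact mul_ne_zero h1 h2
  have e1 : (1 - (1 - t * d) / (d - t) / d) / ((d : ℝ) ^ 2 - 1) = ((d : ℝ) ^ 2 - t * d)⁻¹ := by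
    field_simp
    ring
  have e2 : ((1 - t * d) / (d - t) - 1 / d) / ((d : ℝ) ^ 2 - 1) =
      -(((d : ℝ) ^ 2 - t * d)⁻¹ * t) := by
    field_simp
    ring
  rw [wer, Fintype.card_fin, e1, e2, werner]
  ext p q
  have e3 : flipOp (Fin d) p q = if p = q.swap then 1 else 0 := by
    simp only [flipOp, Prod.ext_iff, Prod.fst_swap, Prod.snd_swap]
  simp only [Matrix.add_apply, Matrix.sub_apply, Matrix.smul_apply, of_apply, e3, smul_eq_mul,
    Complex.real_smul]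
  push_cast
  ring

theorem mixN_wer (hd : 2 ≤ Fintype.card D) (φ s : ℝ) :
    mixN (wer D φ) s = wer D ((1 - s) * φ + s / Fintype.card D) := by
  have hd' : (2 : ℝ) ≤ Fintype.card D := by exact_mod_cast hd
  have hd0 : (Fintype.card D : ℂ) ≠ 0 := by
    have : (Fintype.card D : ℝ) ≠ 0 := by linarith
    exact_mod_cast this
  have hd1 : (Fintype.card D : ℂ) ^ 2 - 1 ≠ 0 := by
    have : (Fintype.card D : ℝ) ^ 2 - 1 ≠ 0 := by nlinarith
    exact_mod_cast this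
  rw [mixN, wer, wer, Fintype.card_prod]
  ext p q
  simp only [Matrix.add_apply, Matrix.smul_apply, smul_eq_mul]
  push_cast
  field_simp
  ring

theorem ppt_open : ∃ d₀ : ℕ, ∀ a ≥ d₀, ∀ b ≥ d₀,
    ∃ ρ₀ : Matrix (Fin a × Fin b) (Fin a × Fin b) ℂ, IsState ρ₀ ∧
      ∀ᶠ ρ in 𝓝 ρ₀, IsState ρ → (bobT ρ).PosSemidef ∧ ¬ Separable ρ ∧ ZeroKey ρ := by
  obtain ⟨m, hm⟩ : ∃ m : ℕ, 5 ^ 15 ≤ m := ⟨_, le_rfl⟩
  obtain ⟨σ, h1, h2, h3, h4, h5⟩ := exists_ppt hm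
  refine ⟨Fintype.card (V m), fun a ha b hb => ?_⟩
  obtain ⟨X, hX⟩ := exists_iso (A := V m) (C := Fin a) (by rwa [Fintype.card_fin])
  obtain ⟨Y, hY⟩ := exists_iso (A := V m) (C := Fin b) (by rwa [Fintype.card_fin])
  obtain ⟨ρ₀, p1, p2, -, -, δ, hδ, H⟩ := exists_open (h1.mul_mul_conjTranspose_same (X ⊗ₖ Y))
    ((emb_trace hX hY σ).trans h2) (fun h => h5 (emb_sep hX hY h))
    (fun h => h3 (emb_key hX hY h1 h2 h)) one_pos
  refine ⟨ρ₀, ⟨p1.posSemidef, p2⟩, ?_⟩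
  filter_upwards [near_nhds ρ₀ hδ] with ρ hρ hs
  obtain ⟨-, q2, q3, q4⟩ := H ρ hs.1.1 hs.2 hρ
  refine ⟨(q4 ?_).posSemidef, fun h => q2 h.isSep, zeroKey_of hs q3⟩
  rw [pTrans_filt]
  exact h4.mul_mul_conjTranspose_same _

theorem npt_open (c : ℝ) : ∃ d₀ : ℕ, ∀ d ≥ d₀, ∀ t : ℝ, 1 < t * d → t * d ≤ c →
    IsState (werner d t) ∧ ∀ᶠ ρ in 𝓝 (werner d t), IsState ρ →
      ¬ (bobT ρ).PosSemidef ∧ ¬ Separable ρ ∧ ZeroKey ρ ∧ Undistillable ρ := by
  obtain ⟨j, hj⟩ := pow_unbounded_of_one_lt (54 * c) (show (1 : ℝ) < 3 / 2 by norm_num)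
  obtain ⟨m, hm⟩ : ∃ m : ℕ, 3 ^ j ≤ m := ⟨_, le_rfl⟩
  obtain ⟨σ, h1, h2, h3, h4⟩ := exists_npt j hm
  obtain ⟨N, hN⟩ := exists_nat_ge c
  refine ⟨max (Fintype.card (V m)) (N + 2), fun d hd t ht1 ht2 => ?_⟩
  have hd1 : Fintype.card (V m) ≤ d := le_trans (le_max_left _ _) hd
  have hd2 : N + 2 ≤ d := le_trans (le_max_right _ _) hd
  have hd3 : 2 ≤ Fintype.card (Fin d) := by rw [Fintype.card_fin]; omega
  have hd4 : c + 2 ≤ (d : ℝ) := by
    have : ((N + 2 : ℕ) : ℝ) ≤ d := by exact_mod_cast hd2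
    push_cast at this
    linarith
  have hc : 1 < c := ht1.trans_le ht2
  have hd5 : (2 : ℝ) ^ m ≤ d := by
    have : ((Fintype.card (V m) : ℕ) : ℝ) ≤ d := by exact_mod_cast hd1
    simpa using this
  have hd0 : (0 : ℝ) < d := by linarith
  have ht3 : t ≤ 1 := by
    by_contra h
    nlinarith
  obtain ⟨X, hX⟩ := exists_iso (A := V m) (C := Fin d) (by rwa [Fintype.card_fin])
  obtain ⟨p1, p2⟩ := wer_no_key hd3 (h1.mul_mul_conjTranspose_same (X ⊗ₖ X))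
    ((emb_trace hX hX σ).trans h2) (fun h => h3 (emb_key hX hX h1 h2 h))
  rw [emb_flip hX] at p1 p2
  obtain ⟨φ, hφ⟩ : ∃ φ, φ = (flipOp (V m) * σ).trace.re := ⟨_, rfl⟩
  rw [← hφ] at h4 p1 p2
  obtain ⟨ψ, hψ⟩ : ∃ ψ, ψ = (1 - t * d) / (d - t) := ⟨_, rfl⟩
  have hdt : (0 : ℝ) < d - t := by linarith
  have hψ0 : ψ < 0 := hψ ▸ div_neg_of_neg_of_pos (by linarith) hdt
  have h2m : (0 : ℝ) < 2 ^ m := by positivity
  have hφ0 : φ < 0 := by
    by_contra h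
    have := mul_nonneg (not_lt.mp h) h2m.le
    linarith
  have hφψ : φ < ψ := by
    have q1 : φ * d ≤ φ * 2 ^ m := mul_le_mul_of_nonpos_left hd5 hφ0.le
    have q2 : φ * (d - t) ≤ φ * (d / 2) := mul_le_mul_of_nonpos_left (by linarith) hφ0.le
    rw [hψ, lt_div_iff₀ hdt]
    linarith
  have hinv : (0 : ℝ) < 1 / d := by positivity
  obtain ⟨s, hs⟩ : ∃ s, s = (ψ - φ) / (1 / d - φ) := ⟨_, rfl⟩
  have hs0 : 0 < s := hs ▸ div_pos (by linarith) (by linarith)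
  have hs1 : s ≤ 1 := hs ▸ (div_le_one (by linarith)).mpr (by linarith)
  have e : werner d t = mixN (wer (Fin d) φ) s := by
    have q1 : s * (1 / d - φ) = ψ - φ := by
      rw [hs]
      exact div_mul_cancel₀ _ (by linarith)
    rw [werner_eq (by omega) (by linarith), mixN_wer hd3, Fintype.card_fin, ← hψ]
    congr 1
    linear_combination -q1
  obtain ⟨δ, hδ, H⟩ := mixN_ball p1 (wer_trace hd3 φ) p2 hs0 hs1
  refine ⟨e ▸ ⟨mixN_psd p1 hs0.le hs1, mixN_trace (wer_trace hd3 φ) s⟩, ?_⟩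
  have hn : ∀ᶠ ρ in 𝓝 (werner d t), ¬ (pTrans ρ).PosSemidef := by
    refine ((psd_closed.preimage continuous_pTrans).isOpen_compl).mem_nhds ?_
    rw [werner_eq (by omega) (by linarith), ← hψ]
    exact wer_npt hd3 hψ0
  rw [← e] at H
  filter_upwards [near_nhds (werner d t) hδ, hn] with ρ hρ hp hst
  obtain ⟨-, q3, -⟩ := H ρ hst.1.1 hst.2 hρ
  exact ⟨hp, fun h => hp (sep_ppt h.isSep), zeroKey_of hst q3, undist_of hst q3⟩

theorem key_of_distillable {ρ : Matrix (A × B) (A × B) ℂ} (h : IsState ρ) (hd : ¬ Undistillable ρ)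
    (E : Type) [Fintype E] [DecidableEq E] (ψ : (A × B) × E → ℂ) (hψ : IsPurification ψ ρ) :
    0 < secretKey ψ := by
  have hk : KeyPos ρ := by
    by_contra hk
    exact hd (undist_of h hk)
  rw [secretKey_bridge, P372W.secretKey_eq]
  exact hk E _ ((P372W.isPurification_iff _ _).1 hψ)

theorem exists_zero : ∃ (a b : ℕ) (ρ : Matrix (Fin a × Fin b) (Fin a × Fin b) ℂ),
    IsState ρ ∧ ¬ Separable ρ ∧ ZeroKey ρ := by
  obtain ⟨d, h⟩ := ppt_open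
  obtain ⟨ρ, h1, h2⟩ := h d le_rfl d le_rfl
  exact ⟨d, d, ρ, h1, (h2.self_of_nhds h1).2⟩

end Vale.Agent.N372
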