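import Vale.Agent.N372.Cone
import Vale.Agent.P372.FULL.Fin54
import Vale.Agent.P372.H625.WernerThm

/-! The commuting operators `γ_U ⊗ γ_U` and the operators given by functions on the cube. -/

open Matrix Kronecker
open scoped ComplexOrder

namespace Vale.Agent.N372

open Vale.Agent.P372 Vale.Agent.P372.H897 Vale.Agent.P372.FULL

variable {m : ℕ}

/-- The label of the product of the features in the support of `u`. -/
def lab (u : V m) : V m × V m := (u, fun k => ∑ a ∈ Finset.Ioi k, u a)

theorem lab_add (u v : V m) : lab (u + v) = lab u + lab v := by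
  refine Prod.ext rfl ?_
  funext k
  simp only [lab, Prod.snd_add, Pi.add_apply, Finset.sum_add_distrib]

theorem lab_zero : lab (0 : V m) = 0 := by
  refine Prod.ext rfl ?_
  funext k
  simp [lab]

theorem lab_single (a : Fin m) : lab (ind {a}) = fg a := by
  have h : ind {a} = Pi.single a (1 : ZMod 2) := by
    funext k
    simp [ind, Pi.single_apply]
  refine Prod.ext h ?_
  funext k
  simp only [lab, fg, ind, Finset.mem_singleton, Finset.sum_ite_eq', Finset.mem_Ioi]

theorem sgc_mul_self (z : ZMod 2) : (sg z : ℂ) * sg z = 1 := by exact_mod_cast sg_mul_self z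

/-- The operators `γ_u ⊗ γ_u`. -/
def Qv (u : V m) : Matrix (V m × V m) (V m × V m) ℂ := pl (lab u) ⊗ₖ pl (lab u)

theorem Qv_mul (u v : V m) : Qv u * Qv v = Qv (u + v) := by
  rw [Qv, Qv, ← mul_kronecker_mul, pl_mul, smul_kronecker, kronecker_smul, smul_smul,
    sgc_mul_self, one_smul, ← lab_add, Qv]

theorem Qv_zero : Qv (0 : V m) = 1 := by
  rw [Qv, lab_zero, pl_zero, one_kronecker_one]

theorem pl_conj (g : V m × V m) : (pl g)ᴴ = (pl g)ᵀ := by
  ext i j
  rw [conjTranspose_apply, pl_star, transpose_apply]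

theorem Qv_herm (u : V m) : (Qv u)ᴴ = Qv u := by
  rw [Qv, conjTranspose_kronecker, pl_conj, pl_transpose, smul_kronecker, kronecker_smul,
    smul_smul, sgc_mul_self, one_smul]

theorem pl_trace (g : V m × V m) : (pl g).trace = if g = 0 then (2 : ℂ) ^ m else 0 := by
  rw [← pl_orth g 0, pl_zero, Matrix.trace]
  refine Finset.sum_congr rfl fun p _ => ?_
  simp [Matrix.one_apply]

theorem Qv_trace (u : V m) : (Qv u).trace = if u = 0 then (2 : ℂ) ^ m * 2 ^ m else 0 := by
  rw [Qv, trace_kronecker, pl_trace]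
  by_cases h : u = 0
  · rw [if_pos h, if_pos (by rw [h, lab_zero])]
  · rw [if_neg h, if_neg (fun h' => h (congrArg Prod.fst h')), mul_zero]

/-- The sign under transposition. -/
def bet (u : V m) : ZMod 2 := (lab u).1 ⬝ᵥ (lab u).2

theorem Qv_pTrans (u : V m) : pTrans (Qv u) = (sg (bet u) : ℂ) • Qv u := by
  ext p q
  simp only [pTrans, Qv, kroneckerMap_apply, Matrix.smul_apply, smul_eq_mul, bet]
  rw [pl_swap (lab u) p.2 q.2]
  ring

theorem TT_Qv (u : V m) : TT m (Qv u) = (((mu (lab u)) ^ 2 : ℝ) : ℂ) • Qv u := by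
  rw [TT, Qv, ap_kron, tk_pl, smul_kronecker, kronecker_smul, smul_smul]
  push_cast
  rw [sq]

theorem flip_Qv (u : V m) : (H625.flipOp (V m) * Qv u).trace = (sg (bet u) : ℂ) * 2 ^ m := by
  rw [H625.flip_tr]
  have h := pl_orth (lab u) (lab u)
  rw [if_pos rfl] at h
  rw [← h, Finset.mul_sum]
  refine Finset.sum_congr rfl fun i _ => ?_
  rw [Finset.mul_sum]
  refine Finset.sum_congr rfl fun j _ => ?_
  simp only [Qv, kroneckerMap_apply, bet]
  rw [pl_swap (lab u) i j]
  ring

theorem q_eq (a : Fin m) : (clV m).q a = Qv (ind {a}) := by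
  rw [Qv, lab_single, H507.Cl.q]
  change pl (fg a) ⊗ₖ (pl (fg a))ᵀ = _
  rw [fg_tr]

theorem sum_ind (U : Finset (Fin m)) : ∑ a, ind U a = (U.card : ZMod 2) := by
  simp [ind]

theorem bet_ind (U : Finset (Fin m)) : bet (ind U) = (U.card.choose 2 : ℕ) := by
  induction U using Finset.induction_on with
  | empty => simp [bet, ind_empty, lab_zero]
  | insert a U ha ih =>
    have hd : Disjoint U {a} := Finset.disjoint_singleton_right.mpr ha
    have e : insert a U = U ∪ {a} := by
      ext k
      simp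
    have h1 : bet (ind ({a} : Finset (Fin m))) = 0 := by
      rw [bet, lab_single, dotProduct_comm, fg_dot, if_neg (lt_irrefl a)]
    have h2 := sum_mul_sum_split (ind U) (ind {a})
    have h3 : ∑ j, ind U j * ind {a} j = 0 := by
      refine Finset.sum_eq_zero fun j _ => ?_
      by_cases hj : j = a
      · subst hj
        simp [ind, ha]
      · simp [ind, hj]
    rw [sum_ind, sum_ind, h3, Finset.card_singleton, Nat.cast_one, mul_one, zero_add] at h2
    have h4 : bet (ind U + ind {a}) = bet (ind U) + bet (ind ({a} : Finset (Fin m))) +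
        ∑ j, (ind U j * ∑ k ∈ Finset.Ioi j, ind {a} k + ind {a} j * ∑ k ∈ Finset.Ioi j, ind U k) := by
      simp only [bet, lab, dotProduct, Pi.add_apply, Finset.sum_add_distrib, add_mul, mul_add]
      ring
    rw [Finset.card_insert_of_notMem ha, e, ind_union hd, h4, ← h2, ih, h1,
      Nat.choose_succ_succ' U.card 1, Nat.choose_one_right]
    push_cast
    ring

theorem sg_nat (t : ℕ) : sg (t : ZMod 2) = (-1) ^ t := by
  induction t with
  | zero => simp [sg_zero]
  | succ t ih =>
    push_cast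
    rw [sg_add, ih, pow_succ]
    simp [sg]

theorem sg_bet {U : Finset (Fin m)} {t : ℕ} (h : U.card = 1 + 2 * t) :
    sg (bet (ind U)) = (-1) ^ t := by
  have h1 : (1 + 2 * t).choose 2 = (1 + 2 * t) * t := by
    rw [Nat.choose_two_right, show 1 + 2 * t - 1 = 2 * t by omega,
      show (1 + 2 * t) * (2 * t) = ((1 + 2 * t) * t) * 2 by ring, Nat.mul_div_cancel _ two_pos]
  rw [bet_ind, h, h1, sg_nat, pow_mul, pow_add, pow_mul]
  simp

/-- The joint spectral projections. -/
noncomputable def Pr (x : V m) : Matrix (V m × V m) (V m × V m) ℂ :=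
  ((2 : ℂ) ^ m)⁻¹ • ∑ u, (sg (x ⬝ᵥ u) : ℂ) • Qv u

theorem Pr_psd (x : V m) : (Pr x).PosSemidef := by
  have h1 : (Pr x)ᴴ = Pr x := by
    rw [Pr, conjTranspose_smul, conjTranspose_sum]
    congr 1
    · simp
    · refine Finset.sum_congr rfl fun u _ => ?_
      rw [conjTranspose_smul, Qv_herm]
      simp
  have h2 : Pr x * Pr x = Pr x := by
    have h3 : ∀ u : V m, ((sg (x ⬝ᵥ u) : ℂ) • Qv u) * ∑ v, (sg (x ⬝ᵥ v) : ℂ) • Qv v =
        ∑ v, (sg (x ⬝ᵥ v) : ℂ) • Qv v := by
      intro u
      rw [Finset.mul_sum, ← Equiv.sum_comp (Equiv.addLeft u) (fun v => (sg (x ⬝ᵥ v) : ℂ) • Qv v)]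
      refine Finset.sum_congr rfl fun v _ => ?_
      rw [smul_mul_smul_comm, Qv_mul, Equiv.coe_addLeft, dotProduct_add, sg_add]
      push_cast
      rfl
    rw [Pr, smul_mul_smul_comm, Finset.sum_mul]
    simp only [h3]
    rw [Finset.sum_const, Finset.card_univ, ← Nat.cast_smul_eq_nsmul ℂ, smul_smul]
    congr 1
    have h4 : ((Fintype.card (V m) : ℕ) : ℂ) = 2 ^ m := by simp
    rw [h4, mul_assoc, inv_mul_cancel₀ two_ne, mul_one]
  have h5 := posSemidef_conjTranspose_mul_self (Pr x)
  rwa [h1, h2] at h5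

/-- The operator of a function on the cube. -/
noncomputable def op : (V m → ℝ) →ₗ[ℝ] Matrix (V m × V m) (V m × V m) ℂ where
  toFun F := ∑ x, (F x : ℂ) • Pr x
  map_add' F G := by
    simp only [Pi.add_apply, Complex.ofReal_add, add_smul, Finset.sum_add_distrib]
  map_smul' c F := by
    simp only [Pi.smul_apply, smul_eq_mul, Complex.ofReal_mul, RingHom.id_apply, Finset.smul_sum]
    refine Finset.sum_congr rfl fun x _ => ?_
    rw [mul_smul, Complex.coe_smul]

theorem op_apply (F : V m → ℝ) : op F = ∑ x, (F x : ℂ) • Pr x := rfl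

theorem op_psd {F : V m → ℝ} (h : ∀ x, 0 ≤ F x) : (op F).PosSemidef := by
  rw [op_apply]
  exact posSemidef_sum _ fun x _ => (Pr_psd x).smul (Complex.zero_le_real.mpr (h x))

theorem op_chi (u : V m) : op (chi u) = Qv u := by
  rw [op_apply]
  simp only [Pr, chi, Finset.smul_sum, smul_smul]
  rw [Finset.sum_comm]
  have h : ∀ v : V m, ∑ x : V m, ((sg (x ⬝ᵥ u) : ℂ) * (((2 : ℂ) ^ m)⁻¹ * sg (x ⬝ᵥ v))) • Qv v =
      if v = u then Qv v else 0 := by
    intro v
    rw [← Finset.sum_smul]
    have h1 : ∀ x : V m, (sg (x ⬝ᵥ u) : ℂ) * (((2 : ℂ) ^ m)⁻¹ * sg (x ⬝ᵥ v)) =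
        ((2 : ℂ) ^ m)⁻¹ * sg (x ⬝ᵥ (u + v)) := by
      intro x
      rw [dotProduct_add, sg_add]
      push_cast
      ring
    simp only [h1]
    rw [← Finset.mul_sum, sum_sg]
    by_cases e : v = u
    · rw [if_pos e, if_pos (by rw [e, add_self_V]), inv_mul_cancel₀ two_ne, one_smul]
    · rw [if_neg e, if_neg, mul_zero, zero_smul]
      intro h'
      have h3 := congrArg (u + ·) h'
      simp only [← add_assoc, add_self_V, zero_add, add_zero] at h3
      exact e h3
  simp only [h]
  simp

theorem op_one : op (1 : V m → ℝ) = 1 := by rw [← chi_zero, op_chi, Qv_zero]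

theorem one_add_op {F : V m → ℝ} (h : ∀ x, |F x| ≤ 1) : (1 + op F).PosSemidef := by
  rw [← op_one, ← map_add]
  exact op_psd fun x => by
    have := abs_le.mp (h x)
    simp only [Pi.add_apply, Pi.one_apply]
    linarith

/-- The sum of the coefficients of level one. -/
noncomputable def ell : (V m → ℝ) →ₗ[ℝ] ℝ where
  toFun F := ((2 : ℝ) ^ m * 2 ^ m)⁻¹ * ∑ a, (op F * (clV m).q a).trace.re
  map_add' F G := by
    simp only [map_add, Matrix.add_mul, trace_add, Complex.add_re, Finset.sum_add_distrib, mul_add]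
  map_smul' c F := by
    simp only [map_smul, Matrix.smul_mul, trace_smul, Complex.smul_re, RingHom.id_apply,
      smul_eq_mul, ← Finset.mul_sum]
    ring

theorem ell_apply (F : V m → ℝ) :
    ell F = ((2 : ℝ) ^ m * 2 ^ m)⁻¹ * ∑ a, (op F * (clV m).q a).trace.re := rfl

theorem ell_chi (U : Finset (Fin m)) : ell (chi (ind U)) = if U.card = 1 then 1 else 0 := by
  have h : ∀ a : Fin m, (op (chi (ind U)) * (clV m).q a).trace.re =
      if U = {a} then (2 : ℝ) ^ m * 2 ^ m else 0 := by
    intro a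
    rw [op_chi, q_eq, Qv_mul, Qv_trace]
    by_cases e : U = {a}
    · rw [if_pos e, if_pos (by rw [e, add_self_V])]
      norm_cast
    · rw [if_neg e, if_neg, Complex.zero_re]
      intro h'
      have h3 := congrArg (· + ind {a}) h'
      simp only [add_assoc, add_self_V, zero_add, add_zero] at h3
      exact e (ind_inj h3)
  rw [ell_apply]
  simp only [h]
  by_cases e : U.card = 1
  · obtain ⟨a, rfl⟩ := Finset.card_eq_one.mp e
    simp only [Finset.singleton_inj, Finset.sum_ite_eq, Finset.mem_univ, if_true,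
      Finset.card_singleton]
    exact inv_mul_cancel₀ (by positivity)
  · rw [if_neg e, Finset.sum_eq_zero, mul_zero]
    intro a _
    rw [if_neg]
    rintro rfl
    exact e (Finset.card_singleton a)

end Vale.Agent.N372
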